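import Vale.Agent.P218WK.RegPt
import Vale.Agent.P218US.Lim
import Vale.Agent.P218HD.HD
import Vale.Agent.P218UZ.SDM

/-! The smooth limit of the rescaled weak flows. -/

open MeasureTheory Set Filter Topology Metric
open scoped ENNReal NNReal RealInnerProductSpace ContDiff

namespace Vale.Agent.P218WK

open Vale.Agent.P218UA Vale.Agent.P218WA Vale.Agent.P218UG Vale.Agent.P218US
open Vale.Agent.P218 (WeakTendsto)
open Vale.Agent.P218.H63 (lap hessSq)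

/-- a graphical piece of the flow with bounds for all derivatives -/
structure Gr (w : ℝ → E3 → ℝ) (Z : Set ℝ) (Q : E3 ≃ₗᵢ[ℝ] E3) (p : E3) (ρ : ℝ) (B : ℕ → ℝ)
    (u : ℝ → E2 → ℝ) : Prop where
  graph : ∀ t ∈ Icc (-1 - ρ ^ 2 / 16) (-1), t ∉ Z →
    IsGraph {x | w t x = 0} Q p (3 * ρ) (4 * ρ) (u t)
  cd : ∀ t ∈ Icc (-1 - ρ ^ 2 / 16) (-1), ContDiffOn ℝ ∞ (u t) (ball 0 (3 * ρ))
  eqn : ∀ t ∈ Icc (-1 - ρ ^ 2 / 16) (-1), ∀ ξ ∈ ball (0 : E2) (3 * ρ),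
    HasDerivAt (fun s => u s ξ) (gmc (u t) ξ) t ∧ ‖gmc (u t) ξ‖ ≤ B 0
  ht : ∀ t ∈ Icc (-1 - ρ ^ 2 / 16) (-1), ∀ ξ ∈ ball (0 : E2) (3 * ρ), |u t ξ| ≤ 2 * ρ
  bd : ∀ t ∈ Icc (-1 - ρ ^ 2 / 16) (-1), ∀ k, ∀ ξ ∈ ball (0 : E2) (3 * ρ),
    ‖iteratedFDeriv ℝ k (u t) ξ‖ ≤ B k

lemma gmc_shift (u : E2 → ℝ) (a : E2) (c : ℝ) (ξ : E2) :
    gmc (fun ξ => u (a + ξ) - c) ξ = gmc u (a + ξ) := by
  rw [gmc_eq, gmc_eq, jet, jet, gradient_shift, fderiv_comp_add_left (f := gradient u)]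

lemma gr_of_sheet (hD : HDStmt) {ρ : ℝ} (hρ : 0 < ρ) : ∃ B : ℕ → ℝ, ∀ w Z Q p p', ‖p' - p‖ ≤ ρ →
    SheetOnW w Z (Icc (-1 - ρ ^ 2 / 8) (-1 + ρ ^ 2 / 8)) Q p' (5 * ρ) ρ 1 →
    (∀ ξ s, ‖ξ‖ < 3 * ρ → |s| < 4 * ρ → w (-1) (pt Q p ξ s) ≠ 0) ∨ ∃ u, Gr w Z Q p ρ B u := by
  choose! C hC using hD 1
  have := FiniteDimensional.proper_real (E2 →L[ℝ] E2)
  obtain ⟨L, hL⟩ := ((isCompact_closedBall (0 : E2) 1).prod (isCompact_closedBall
    (0 : E2 →L[ℝ] E2) (1 / (ρ / 4)))).exists_bound_of_continuousOn continuous_gj.continuousOn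
  refine ⟨fun k => if k = 0 then max (2 * ρ) L else if k = 1 then 1 else C k / (ρ / 4) ^ (k - 1),
    fun w Z Q p p' hp h => ?_⟩
  obtain ⟨a, c, rfl⟩ : ∃ a c, p = pt Q p' a c := ⟨_, _, (pt_hor Q p' p).symm⟩
  rw [norm_sub_rev, pt_eq, add_sub_cancel_left] at hp
  have ha : ‖a‖ ≤ ρ := (fst_le_norm_lin (Q := Q) (a, c)).trans hp
  have hc : |c| ≤ ρ := (snd_le_norm_lin (Q := Q) (a, c)).trans hp
  have e : ∀ ξ s, pt Q (pt Q p' a c) ξ s = pt Q p' (a + ξ) (c + s) := fun ξ s => by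
    rw [pt_eq, pt_eq, pt_eq, add_assoc, ← map_add]; rfl
  have hρ2 : 0 < ρ ^ 2 := by positivity
  have n1 : ∀ ξ : E2, ‖ξ‖ < 4 * ρ → ‖a + ξ‖ < 5 * ρ := fun ξ h => by linarith [norm_add_le a ξ]
  have n2 : ∀ s : ℝ, |s| < 4 * ρ → |c + s| < 5 * ρ := fun s h => by linarith [abs_add_le c s]
  rcases h with h | ⟨u, h⟩
  · exact Or.inl fun ξ s h1 h2 => e ξ s ▸ h _ ⟨by linarith, by linarith⟩ _ _
      (n1 ξ (by linarith)) (n2 s h2)
  set v : ℝ → E2 → ℝ := fun t ξ => u t (a + ξ) - c with hv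
  have hm : ∀ t ξ, ContDiffAt ℝ ∞ (fun q : ℝ × E2 => (q.1, a + q.2)) (t, ξ) := fun t ξ => by
    fun_prop
  have key : ∀ t ∈ Icc (-1 - ρ ^ 2 / 8) (-1 + ρ ^ 2 / 8), ∀ ξ : E2, ‖ξ‖ < 4 * ρ →
      (ContDiffAt ℝ ∞ (fun q : ℝ × E2 => v q.1 q.2) (t, ξ) ∧
      deriv (fun s => v s ξ) t = gmc (v t) ξ ∧ ‖gradient (v t) ξ‖ ≤ 1 ∧
      ‖fderiv ℝ (gradient (v t)) ξ‖ ≤ 1 / (ρ / 4)) ∧ |v t ξ| ≤ 2 * ρ := fun t ht ξ hξ => by
    obtain ⟨b1, -, b2, b3, b4, b5⟩ := (h t ht).2 _ (n1 ξ hξ)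
    have b6 : ContDiffAt ℝ ∞ (fun q : ℝ × E2 => v q.1 q.2) (t, ξ) :=
      (ContDiffAt.comp (t, ξ) (g := fun q : ℝ × E2 => u q.1 q.2) b1 (hm t ξ)).sub contDiffAt_const
    refine ⟨⟨b6, ?_, ?_, ?_⟩, ?_⟩
    · rwa [hv, gmc_shift, deriv_sub_const]
    · rwa [hv, gradient_shift]
    · rw [hv, gradient_shift, fderiv_comp_add_left (f := gradient (u t))]
      exact b5.trans (one_div_le_one_div_of_le (by positivity) (by linarith))
    · linarith [abs_sub (u t (a + ξ)) c]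
  have sub : ∀ t ∈ Icc (-1 - ρ ^ 2 / 16) (-1 : ℝ), t ∈ Icc (-1 - ρ ^ 2 / 8) (-1 + ρ ^ 2 / 8) :=
    fun t ht => ⟨by linarith [ht.1], by linarith [ht.2]⟩
  have n3 : ∀ ξ ∈ ball (0 : E2) (3 * ρ), ‖ξ‖ < 4 * ρ := fun ξ h => by
    linarith [mem_ball_zero_iff.1 h]
  refine Or.inr ⟨v, fun t ht hZ ξ hξ => ⟨by linarith [(key t (sub t ht) ξ (by linarith)).2],
    fun s hs => ?_⟩, fun t ht ξ hξ => (ContDiffAt.comp ξ (g := fun q : ℝ × E2 => v q.1 q.2)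
      (f := fun ζ : E2 => (t, ζ)) (key t (sub t ht) ξ (n3 ξ hξ)).1.1
        (by fun_prop)).contDiffWithinAt, fun t ht ξ hξ => ?_,
    fun t ht ξ hξ => (key t (sub t ht) ξ (n3 ξ hξ)).2, fun t ht k ξ hξ => ?_⟩
  · rw [e, ((h t (sub t ht)).1 hZ _ (n1 ξ (by linarith))).2 _ (n2 s hs), hv, eq_sub_iff_add_eq']
  · obtain ⟨⟨b1, b2, b3, b4⟩, -⟩ := key t (sub t ht) ξ (n3 ξ hξ)
    refine ⟨?_, (hL (jet (v t) ξ).2 ⟨mem_closedBall_zero_iff.2 b3,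
      mem_closedBall_zero_iff.2 b4⟩).trans (le_max_right _ _)⟩
    rw [← b2]
    exact ((ContDiffAt.comp t (g := fun q : ℝ × E2 => v q.1 q.2) (f := fun s : ℝ => (s, ξ)) b1
      (by fun_prop)).differentiableAt (by simp)).hasDerivAt
  · obtain ⟨⟨-, -, b1, -⟩, b2⟩ := key t (sub t ht) ξ (n3 ξ hξ)
    split_ifs with k0 k1
    · rw [k0, norm_iteratedFDeriv_zero]
      exact le_max_of_le_left b2
    · rwa [k1, norm_iteratedFDeriv_one, ← norm_grad]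
    · refine hC k (by omega) v t (ρ / 4) ξ (by positivity) fun t' ht' ξ' hξ' =>
        (key t' ⟨by linarith [ht'.1, ht.1], by linarith [ht'.2, ht.2]⟩ ξ' ?_).1
      linarith [norm_sub_norm_le ξ' ξ, mem_closedBall_iff_norm.1 hξ', mem_ball_zero_iff.1 hξ]

variable {w : ℝ → E3 → ℝ} {a A C : ℝ} {Z : Set ℝ} {s : ℕ → ℝ} {ν : Measure E3}

lemma chart (hR : RegPtW) (ha : a < 0) (hw : IsWG w (Ioo a 0) Z A C)
    (hs : TanW w Z s ν) (hZ : Zset ν = ∅) (p : E3) : ∃ Q ρ B, 0 < ρ ∧ ρ < 1 ∧ ∀ᶠ i in atTop,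
      (∀ ξ t, ‖ξ‖ < 3 * ρ → |t| < 4 * ρ → resc w (s i) (-1) (pt Q p ξ t) ≠ 0) ∨
        ∃ u, Gr (resc w (s i)) (zs Z (s i)) Q p ρ B u := by
  obtain ⟨Q, p', ρ, h1, h2, -, h4, h5⟩ := hR w a Z A C ha hw s ν hs (-1) (by norm_num) p
    (by simp [hZ]) 1 one_pos
  obtain ⟨B, hB⟩ := gr_of_sheet P218HD.hd h1
  exact ⟨Q, ρ, B, h1, h2, h5.mono fun i hi => hB _ _ Q p p' h4 hi⟩

lemma ev_surf (hC : CalcW) (ha : a < 0) (hw : IsWG w (Ioo a 0) Z A C) (hs : TanW w Z s ν) :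
    ∀ᶠ i in atTop, ∀ t ∈ Icc (-2 : ℝ) (-1), IsSurf (resc w (s i) t) ∧ LGB (resc w (s i) t) C := by
  filter_upwards [P218UD.ev_left ha hs.toTanSeq (-2)] with i hi t ht
  have h := hC.rescG w a Z A C hw _ (hs.pos i)
  have hm : t ∈ Ioo (a / s i ^ 2) 0 := ⟨hi.trans_le ht.1, ht.2.trans_lt (by norm_num)⟩
  exact ⟨h.toIsW0.slice hm, h.lgb t hm⟩

lemma flow_lim (hC : CalcW) (hT : TangW) (ha : a < 0) (hw : IsWG w (Ioo a 0) Z A C)
    (hs : TanW w Z s ν) {Q : E3 ≃ₗᵢ[ℝ] E3} {p : E3} {ρ : ℝ} {B : ℕ → ℝ} {u : ℕ → ℝ → E2 → ℝ}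
    (hρ : 0 < ρ) (hρ1 : ρ < 1) (hu : ∀ᶠ i in atTop, Gr (resc w (s i)) (zs Z (s i)) Q p ρ B (u i))
    {φ : ℕ → ℕ} (hφ : StrictMono φ) {t : ℕ → ℝ} {t' : ℝ}
    (ht : ∀ n, t n ∈ Icc (-1 - ρ ^ 2 / 16) (-1)) (ht' : t' ≤ -1) (hl : Tendsto t atTop (𝓝 t')) :
    ∃ U, IsGraph (scal ν √(-t')).support Q p (3 * ρ) (4 * ρ) U ∧ ContDiffOn ℝ ∞ U (ball 0 (3 * ρ)) ∧
      ∀ (k : ℕ) (K : Set E2), K ⊆ ball 0 (3 * ρ) → IsCompact K → TendstoUniformlyOn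
        (fun n => iteratedFDeriv ℝ k (u (φ n) (t n))) (iteratedFDeriv ℝ k U) atTop K := by
  have := (P218UD.AR_scal (Real.sqrt_pos.2 (by linarith : 0 < -t'))
    (hT.ratio w a Z A ha hw.toIsW0 s ν hs)).locFin
  have hu' := hφ.tendsto_atTop.eventually hu
  obtain ⟨t₁, k1, k2, k3⟩ := exists_times (Z := fun n => zs Z (s (φ n))) (Eventually.of_forall
    fun n => (hC.rescG w a Z A C hw _ (hs.pos (φ n))).null) (by nlinarith) ht hl
  obtain ⟨U, a1, a2, a3⟩ := stat (f := fun n => resc w (s (φ n)) (t₁ n)) (h' := 2 * ρ)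
    ((hφ.tendsto_atTop.eventually (ev_surf hC ha hw hs)).mono fun n hn =>
      (hn _ ⟨by nlinarith [(k1 n).1], (k1 n).2⟩).1)
    (hT.slow w a Z A ha hw.toIsW0 _ ν ⟨P218UD.tanSeq_sub hs.toTanSeq hφ, fun _ => hs.regT _⟩ t₁ t'
      (by linarith) k2 k3) (by linarith : 2 * ρ < 4 * ρ)
    ((hu'.and k3).mono fun n hn => ⟨hn.1.graph _ (k1 n) hn.2, hn.1.ht _ (k1 n)⟩)
    ⟨hu'.mono fun n hn => hn.cd _ (k1 n), fun k => ⟨B k, hu'.mono fun n hn => hn.bd _ (k1 n) k⟩⟩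
  refine ⟨U, a1, jets isOpen_ball (convex_ball 0 _) ⟨hu'.mono fun n hn => hn.cd _ (ht n),
    fun k => ⟨B k, hu'.mono fun n hn => hn.bd _ (ht n) k⟩⟩ fun ξ hξ => ?_⟩
  have b1 := (tu_zero (a3 0 _ (singleton_subset_iff.2 hξ) isCompact_singleton)).tendsto_at rfl
  have b2 : Tendsto (fun n => u (φ n) (t n) ξ - u (φ n) (t₁ n) ξ) atTop (𝓝 0) :=
    squeeze_zero_norm' (hu'.mono fun n hn => (convex_Icc _ _).norm_image_sub_le_of_norm_hasDerivWithin_le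
      (f := fun s => u (φ n) s ξ) (fun τ hτ => (hn.eqn τ hτ ξ hξ).1.hasDerivWithinAt)
      (fun τ hτ => (hn.eqn τ hτ ξ hξ).2) (k1 n) (ht n))
      (by simpa using (hl.sub k2).norm.const_mul (B 0))
  simpa using b2.add b1

lemma ev_gr (hs : TanSeq w s ν) {Q : E3 ≃ₗᵢ[ℝ] E3} {p : E3} {ρ : ℝ} {B : ℕ → ℝ} (hρ : 0 < ρ)
    (hp : p ∈ ν.support) (h : ∀ᶠ i in atTop,
      (∀ ξ t, ‖ξ‖ < 3 * ρ → |t| < 4 * ρ → resc w (s i) (-1) (pt Q p ξ t) ≠ 0) ∨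
        ∃ u, Gr (resc w (s i)) (zs Z (s i)) Q p ρ B u) :
    ∃ u : ℕ → ℝ → E2 → ℝ, ∀ᶠ i in atTop, Gr (resc w (s i)) (zs Z (s i)) Q p ρ B (u i) := by
  have := hs.locFin
  refine Eventually.choice ((h.and (hit hs.weak hp hρ)).mono fun i ⟨h1, x, h2, h3⟩ =>
    h1.resolve_left fun h1 => ?_)
  obtain ⟨ξ, t, rfl, a1, a2⟩ := coord Q p (ξ := 0) (s := 0) (by rwa [pt_zero])
  rw [sub_zero] at a1 a2
  exact h1 ξ t (by linarith) (by linarith) h3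

lemma smoothConv (hC : CalcW) (hT : TangW) (hR : RegPtW) (ha : a < 0)
    (hw : IsWG w (Ioo a 0) Z A C) (hs : TanW w Z s ν) (hZ : Zset ν = ∅) :
    SmoothConv (fun i => {x | resc w (s i) (-1) x = 0}) ν.support := by
  refine ⟨fun p hp => ?_, fun p hp => ?_⟩ <;>
    obtain ⟨Q, ρ, B, h1, h2, h3⟩ := chart hR ha hw hs hZ p <;>
    have hm : (-1 : ℝ) ∈ Icc (-1 - ρ ^ 2 / 16) (-1) := ⟨by nlinarith, le_rfl⟩
  · exact away ((ev_surf hC ha hw hs).mono fun i hi => (hi _ ⟨by norm_num, le_rfl⟩).1) hs.weak hp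
      (C := B 1) (by positivity) (by positivity) (h3.mono fun i hi => hi.imp_right
        fun ⟨u, hu⟩ => ⟨_, hu.graph _ hm (hs.regT i), hu.cd _ hm, hu.bd _ hm 1⟩)
  · obtain ⟨u, hu⟩ := ev_gr hs.toTanSeq h1 hp h3
    obtain ⟨U, a1, a2, a3⟩ := flow_lim hC hT ha hw hs h1 h2 hu strictMono_id (fun _ => hm) le_rfl
      tendsto_const_nhds
    rw [scal_one] at a1
    have hsub : ball (0 : E2) (2 * ρ) ⊆ ball 0 (3 * ρ) := ball_subset_ball (by linarith)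
    exact ⟨Q, 2 * ρ, 4 * ρ, U, fun i => u i (-1), by positivity, by positivity,
      IsGraph.mono a1 (by linarith), a2.mono hsub, hu.mono fun i hi =>
        ⟨IsGraph.mono (hi.graph _ hm (hs.regT i)) (by linarith), (hi.cd _ hm).mono hsub⟩,
      fun k => (a3 k _ (closedBall_subset_ball (by linarith))
        (isCompact_closedBall 0 (2 * ρ))).mono ball_subset_closedBall⟩

lemma shrinker (hC : CalcW) (hT : TangW) (hR : RegPtW) (ha : a < 0)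
    (hw : IsWG w (Ioo a 0) Z A C) (hs : TanW w Z s ν) (hZ : Zset ν = ∅) {W : E3 → ℝ}
    (hW : IsSurf W) (hS : {x | W x = 0} = ν.support) {p : E3} (hp : W p = 0) :
    lap W p = ⟪p, gradient W p⟫ / 2 := by
  obtain ⟨Q, ρ, B, h1, h2, h3⟩ := chart hR ha hw hs hZ p
  have hp' : p ∈ ν.support := hS ▸ hp
  obtain ⟨u, hu⟩ := ev_gr hs.toTanSeq h1 hp' h3
  have h0 : (0 : E2) ∈ ball (0 : E2) (3 * ρ) := mem_ball_self (by positivity)
  have hK : ({0} : Set E2) ⊆ ball 0 (3 * ρ) := singleton_subset_iff.2 h0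
  have lim : ∀ τ ∈ Icc 0 (ρ ^ 2 / 16), ∃ b, Tendsto (fun i => u i (-1 - τ) 0) atTop (𝓝 b) ∧
      (∀ b', |b'| < 4 * ρ → pt Q p 0 b' ∈ (scal ν √(-(-1 - τ))).support → b' = b) ∧
      W ((√(1 + τ))⁻¹ • pt Q p 0 b) = 0 := fun τ hτ => by
    obtain ⟨U, a1, -, a3⟩ := flow_lim hC hT ha hw hs h1 h2 hu strictMono_id (t' := -1 - τ)
      (fun _ => ⟨by linarith [hτ.2], by linarith [hτ.1]⟩) (by linarith [hτ.1]) tendsto_const_nhds
    have a4 := a1 0 (by simpa)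
    refine ⟨U 0, (tu_zero (a3 0 _ hK isCompact_singleton)).tendsto_at rfl,
      fun b' h h' => (a4.2 b' h).1 h', ?_⟩
    have := support_scal (Real.sqrt_pos.2 (by linarith [hτ.1])) ((a4.2 _ a4.1).2 rfl)
    rwa [← hS, show -(-1 - τ) = 1 + τ by ring] at this
  obtain ⟨τ, -, t1, t2⟩ := exists_seq_strictAnti_tendsto' (show 0 < ρ ^ 2 / 16 by positivity)
  choose b b1 _b3 b2 using fun n => lim (τ n) (Ioo_subset_Icc_self (t1 n))
  obtain ⟨b₀, c1, c2, -⟩ := lim 0 ⟨le_rfl, by positivity⟩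
  rw [sub_zero] at c1 c2
  rw [← c2 0 (by simpa) (by rwa [pt_zero, scal_one])] at c1
  obtain ⟨φ, hφ, hφ'⟩ := extraction_forall_of_eventually fun n => hu.and
    ((Metric.tendsto_nhds.1 c1 _ (pow_pos (t1 n).1 2)).and
      (Metric.tendsto_nhds.1 (b1 n) _ (pow_pos (t1 n).1 2)))
  have hI : ∀ n, ∀ t ∈ Icc (-1 - τ n) (-1), t ∈ Icc (-1 - ρ ^ 2 / 16) (-1) := fun n t ht =>
    ⟨by linarith [ht.1, (t1 n).2], ht.2⟩
  choose t d1 d2 using fun n => exists_hasDerivAt_eq_slope (fun s => u (φ n) s 0)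
    (fun t => gmc (u (φ n) t) 0) (show -1 - τ n < -1 by linarith [(t1 n).1])
    (fun t ht => ((hφ' n).1.eqn t (hI n t ht) 0 h0).1.continuousAt.continuousWithinAt)
    fun t ht => ((hφ' n).1.eqn t (hI n t (Ioo_subset_Icc_self ht)) 0 h0).1
  obtain ⟨U, a1, a2, a3⟩ := flow_lim hC hT ha hw hs h1 h2 hu hφ (t' := -1)
    (fun n => hI n _ (Ioo_subset_Icc_self (d1 n))) le_rfl
    (tendsto_of_tendsto_of_tendsto_of_le_of_le (by simpa using t2.const_sub (-1))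
      tendsto_const_nhds (fun n => (d1 n).1.le) fun n => (d1 n).2.le)
  rw [scal_one, ← hS] at a1
  have U0 : U 0 = 0 := (((a1 0 (by simpa)).2 0 (by simpa)).1 (by rwa [pt_zero])).symm
  have e1 : Tendsto (fun n => gmc (u (φ n) (t n)) 0) atTop (𝓝 (gmc U 0)) :=
    (continuous_gj.comp continuous_snd).continuousAt.tendsto.comp
      ((tu_jet fun k => a3 k _ hK isCompact_singleton).tendsto_at rfl)
  have e2 : Tendsto (fun n => (τ n)⁻¹ * b n) atTop (𝓝 (-gmc U 0)) := by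
    have : Tendsto (fun n => (τ n)⁻¹ * b n + gmc (u (φ n) (t n)) 0) atTop (𝓝 0) := by
      refine squeeze_zero_norm (fun n => ?_) (by simpa using t2.const_mul 2)
      have f1 := (hφ' n).2.1
      have f2 := (hφ' n).2.2
      rw [Real.dist_eq] at f1 f2
      rw [d2 n, show -1 - (-1 - τ n) = τ n by ring, ← div_eq_inv_mul, ← add_div, norm_div,
        Real.norm_of_nonneg (t1 n).1.le, div_le_iff₀ (t1 n).1, Real.norm_eq_abs, abs_le]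
      constructor <;> nlinarith [abs_lt.1 f1, abs_lt.1 f2]
    simpa using this.sub e1
  have hd : HasDerivAt (fun x : ℝ => (√(1 + x))⁻¹) (-(1 / 2)) 0 := by
    refine ((((hasDerivAt_id 0).const_add 1).sqrt (by norm_num)).inv (by simp)).congr_deriv ?_
    norm_num
  have t3 : Tendsto τ atTop (𝓝[>] 0) :=
    tendsto_nhdsWithin_iff.2 ⟨t2, Eventually.of_forall fun n => (t1 n).1⟩
  have e3 := hd.tendsto_slope_zero_right.comp t3
  have e4 := hd.continuousAt.tendsto.comp t2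
  simp only [add_zero, Real.sqrt_one, inv_one, zero_add, Function.comp_def, smul_eq_mul] at e3 e4
  have e5 : Tendsto (fun n => (τ n)⁻¹ • ((√(1 + τ n))⁻¹ • pt Q p 0 (b n) - p)) atTop
      (𝓝 (-(1 / 2 : ℝ) • p + (1 * -gmc U 0) • nQ Q)) := by
    refine ((e3.smul_const p).add ((e4.mul e2).smul_const (nQ Q))).congr fun n => ?_
    rw [pt_add, pt_zero]
    module
  have e6 : Tendsto (fun n => (√(1 + τ n))⁻¹ • pt Q p 0 (b n) - p) atTop (𝓝 0) := by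
    refine (t2.zero_smul_isBoundedUnder_le e5.norm.isBoundedUnder_le).congr fun n => ?_
    exact smul_inv_smul₀ (t1 n).1.ne' _
  have e7 := (hasFDerivWithinAt_univ.2 (surf_diff hW p).hasFDerivAt).lim e6
    (Eventually.of_forall fun _ => mem_univ _) e5
  simp only [add_sub_cancel, b2, hp, sub_self, smul_zero] at e7
  have e8 := tendsto_nhds_unique tendsto_const_nhds e7
  obtain ⟨σ, -, g1, g2, -⟩ := graph_geom hW
    ((a2.contDiffAt (isOpen_ball.mem_nhds h0)).of_le (by norm_cast)) (IsGraph.ev a1 h0)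
  rw [U0, pt_zero] at g1 g2
  rw [← P218GA.inner_grad, inner_add_right, real_inner_smul_right, real_inner_smul_right,
    real_inner_comm] at e8
  have g3 : ⟪gradient W p, nQ Q⟫ = σ / √(1 + ‖gradient U 0‖ ^ 2) := by
    rw [g1, real_inner_smul_left, inner_lin_nQ, mul_one]
  rw [g3] at e8
  rw [g2, mul_div_right_comm, neg_div]
  linarith

/-- the smooth limit, together with the smooth convergence of the time `-1` slices -/
theorem lim' (hC : CalcW) (hT : TangW) (hR : RegPtW) (ha : a < 0) (hw : IsWG w (Ioo a 0) Z A C)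
    (hs : TanW w Z s ν) (hZ : Zset ν = ∅) : ∃ W, IsShr W ∧ ar W = ν ∧ LGB W C ∧
      SmoothConv (fun i => {x | resc w (s i) (-1) x = 0}) {x | W x = 0} := by
  have hc := smoothConv hC hT hR ha hw hs hZ
  have hf := (ev_surf hC ha hw hs).mono fun i hi => hi (-1) ⟨by norm_num, le_rfl⟩
  have hf' := hf.mono fun _ h => h.1
  obtain ⟨W, hW, e⟩ := exists_surf P218UZ.sdm hf' Measure.isClosed_support hc
  have hc' := e ▸ hc
  refine ⟨W, ⟨hW, fun x hx => shrinker hC hT hR ha hw hs hZ hW e hx⟩, ?_,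
    lgb_lim (zero_le_one.trans hw.one_le') hf hW hc', hc'⟩
  have := P218US.locFin hW
  have := hs.locFin
  refine Measure.ext_of_integral_eq_on_compactlySupported fun φ => tendsto_nhds_unique ?_
    (hs.weak φ φ.continuous φ.hasCompactSupport)
  have := conv hf' hW hc' geo_one φ.continuous φ.hasCompactSupport
  simp only [mul_one] at this
  exact this

/-- [LIM] -/
theorem lim (hC : CalcW) (hT : TangW) (hR : RegPtW) : LimW := fun _ _ _ _ _ ha hw _ _ hs hZ =>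
  let ⟨W, h1, h2, h3, _⟩ := lim' hC hT hR ha hw hs hZ
  ⟨W, h1, h2, h3⟩

end Vale.Agent.P218WK
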