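import Vale.Agent.P218WA.Props
import Vale.Agent.P218UK.RegPt
import Vale.Agent.P218UU.Slow
import Vale.Agent.P218UX.Mono
import Vale.Agent.P218UT.Cyl

/-! Regularity of weak flows near the points which are not of higher multiplicity. -/

open MeasureTheory Set Filter Topology Metric
open scoped ENNReal NNReal RealInnerProductSpace ContDiff

namespace Vale.Agent.P218WK

open Vale.Agent.P218UA Vale.Agent.P218WA Vale.Agent.P218UM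
open Vale.Agent.P218UK (eventually_lt norm_pt_sub AR_scal gd_le gd_slice small_scale exp_far)
open Vale.Agent.P218UG (nQ exists_frame)

/-- regular times close to given times -/
lemma exists_times {Z : ℕ → Set ℝ} (hZ : ∀ᶠ i in atTop, volume (Z i) = 0) {t : ℕ → ℝ} {t' a b : ℝ}
    (hab : a < b) (ht : ∀ i, t i ∈ Icc a b) (hl : Tendsto t atTop (𝓝 t')) :
    ∃ t₁ : ℕ → ℝ, (∀ i, t₁ i ∈ Icc a b) ∧ Tendsto t₁ atTop (𝓝 t') ∧ ∀ᶠ i in atTop, t₁ i ∉ Z i := by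
  have key : ∀ i, ∃ τ ∈ Icc a b, |τ - t i| ≤ 1 / ((i : ℝ) + 1) ∧ (volume (Z i) = 0 → τ ∉ Z i) := by
    intro i
    have h0 : 0 < 1 / ((i : ℝ) + 1) := by positivity
    by_cases h : volume (Z i) = 0
    · obtain ⟨τ, h1, h2⟩ := exists_notMem h (a := max a (t i - 1 / ((i : ℝ) + 1)))
        (b := min b (t i + 1 / ((i : ℝ) + 1))) (max_lt (lt_min hab (by linarith [(ht i).1]))
          (lt_min (by linarith [(ht i).2]) (by linarith)))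
      obtain ⟨⟨h3, h4⟩, h5, h6⟩ := And.intro (max_lt_iff.1 h1.1) (lt_min_iff.1 h1.2)
      exact ⟨τ, ⟨h3.le, h5.le⟩, abs_le.2 ⟨by linarith, by linarith⟩, fun _ => h2⟩
    · exact ⟨t i, ht i, by rw [sub_self, abs_zero]; exact h0.le, fun h' => absurd h' h⟩
  choose t₁ h1 h2 h3 using key
  refine ⟨t₁, h1, ?_, hZ.mono h3⟩
  simpa using (squeeze_zero_norm (f := fun i => t₁ i - t i) h2
    tendsto_one_div_add_atTop_nhds_zero_nat).add hl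

/-- a bound for the Gaussian density ratios of the limit gives a sheet -/
lemma sheet_of (hC : CalcW) (hT : TangW) (hS : SheetW) (A : ℝ) {η : ℝ} (hη : 0 < η) :
    ∃ ε > 0, ∀ (w : ℝ → E3 → ℝ) (a C : ℝ) (Z : Set ℝ) (s : ℕ → ℝ) (ν : Measure E3), a < 0 →
      IsWG w (Ioo a 0) Z A C → TanW w Z s ν → ∀ (Q : E3 ≃ₗᵢ[ℝ] E3) (p : E3) (ρ t : ℝ), 0 < ρ →
      t + ρ ^ 2 < 0 → (∀ (ξ : E2) (h r : ℝ), ‖ξ‖ ≤ 15 * ρ → |h| ≤ 10 * ρ → r ∈ Icc (ρ / 2) ρ →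
        gd (scal ν √(-(t - 7 / 8 * ρ ^ 2))) (pt Q p ξ h) r
          ≤ Real.exp (-h ^ 2 / (4 * r ^ 2)) + ε) → ∀ᶠ i in atTop, SheetOnW (resc w (s i))
        (zs Z (s i)) (Icc (t - ρ ^ 2 / 8) (t + ρ ^ 2 / 8)) Q p (5 * ρ) ρ η := by
  obtain ⟨ε, hε, hS⟩ := hS A η hη
  refine ⟨ε / 2, half_pos hε, fun w a C Z s ν ha hw hs Q p ρ t hρ ht h => ?_⟩
  have hρ2 := pow_pos hρ 2
  have ht₁ : t - 7 / 8 * ρ ^ 2 < 0 := by linarith
  have hr := fun i => hC.rescG w a Z A C hw _ (hs.pos i)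
  obtain ⟨t₁, k1, k2, k3⟩ := exists_times (Z := fun i => zs Z (s i))
    (Eventually.of_forall fun i => (hr i).null) (t := fun _ => t - 7 / 8 * ρ ^ 2)
    (show t - 7 / 8 * ρ ^ 2 < t - 4 / 5 * ρ ^ 2 by linarith) (fun _ => ⟨le_rfl, by linarith⟩)
    tendsto_const_nhds
  have h1 := hT.slow w a Z A ha hw.toIsW0 s ν hs t₁ _ ht₁ k2 k3
  have h2 := eventually_lt ha hs.toTanSeq (t - 7 / 8 * ρ ^ 2)
  have hm : ∀ i, a / s i ^ 2 < t - 7 / 8 * ρ ^ 2 → t₁ i ∈ Ioo (a / s i ^ 2) 0 := fun i hi =>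
    ⟨hi.trans_le (k1 i).1, by linarith [(k1 i).2]⟩
  have h3 := P218UU.gd_lim P218UX.monoThm (h2.mono fun i hi => (hr i).ratio _ (hm i hi))
    (AR_scal (hT.ratio w a Z A ha hw.toIsW0 s ν hs) (Real.sqrt_pos.2 (neg_pos.2 ht₁))) h1
    (‖p‖ + 25 * ρ) (ρ / 2) ρ (ε / 2) (half_pos hρ) (half_pos hε)
  filter_upwards [h2, h3, k3] with i hi h3 k3
  have e2 : t + ρ ^ 2 / 8 - ρ ^ 2 / 4 = t - ρ ^ 2 / 8 := by ring
  have := hS _ _ _ (hr i).toIsW Q p (5 * ρ) ρ (t + ρ ^ 2 / 8) (t₁ i)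
    (by positivity) hρ ⟨by linarith, by linarith⟩ ⟨hm i hi, k3⟩ (by linarith [(k1 i).1])
    (by linarith [(k1 i).2]) fun ξ h' r hξ hh hr => by
      have h4 : ‖pt Q p ξ h'‖ ≤ ‖p‖ + 25 * ρ := by
        have := norm_pt_sub Q p ξ h'
        have := norm_sub_norm_le (pt Q p ξ h') p
        linarith
      have h5 := (abs_le.1 (h3 _ h4 r hr)).2
      have h6 := h ξ h' r (by linarith) hh hr
      linarith
  rwa [e2] at this

/-- [REGPT] -/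
theorem regPt (hC : CalcW) (hT : TangW) (hF : FlatW) (hS : SheetW) : RegPtW := by
  intro w a Z A C ha hw s ν hs t ht p hp η hη
  obtain ⟨ε, hε, hS⟩ := sheet_of hC hT hS A hη
  have hA : 0 ≤ A := zero_le_one.trans hw.one_le
  obtain ⟨κ, hκ, hκ1, hG⟩ := gd_le P218UX.monoThm P218UT.cylDens hA (half_pos hε)
  obtain ⟨m, hm0, hm1, hm2⟩ : ∃ m : ℝ, 0 < m ∧ m ≤ 1 / 80 ∧ m ≤ ε / 8 :=
    ⟨min (1 / 80) (ε / 8), lt_min (by norm_num) (by positivity), min_le_left _ _, min_le_right _ _⟩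
  obtain ⟨δ, hδ, hG⟩ := hG (κ * m / 4) (by positivity)
  have hc0 : 0 < √(-t) := Real.sqrt_pos.2 (neg_pos.2 ht)
  obtain ⟨r₀, hr₀, hfl⟩ := hF w a Z A C ha hw.toIsG0 s ν hs ‖(√(-t))⁻¹ • p‖ 10 δ hδ
  have hsm : ∀ᶠ r in 𝓝[>] (0 : ℝ), r ∈ Ioo 0
      (min (min r₀ 1) (min (η / √(-t)) (1 / (4 * ‖(√(-t))⁻¹ • p‖ + 1)))) :=
    Ioo_mem_nhdsGT (by positivity)
  have hp' : ∃ᶠ r in 𝓝[>] (0 : ℝ), ¬3 / 2 ≤ mk ν ((√(-t))⁻¹ • p) r := not_eventually.1 hp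
  obtain ⟨r, hr1, hr, hr2⟩ := (hp'.and_eventually hsm).exists
  simp only [lt_min_iff] at hr2
  obtain ⟨⟨hr2, hr3⟩, hr4, hr5⟩ := hr2
  rw [lt_div_iff₀ hc0] at hr4
  rw [lt_div_iff₀ (by positivity)] at hr5
  obtain ⟨n, h₀, hn, hG⟩ := hG ν (hT.ratio w a Z A ha hw.toIsW0 s ν hs) _ r hr (not_le.1 hr1)
    (hfl _ le_rfl r hr hr2)
  obtain ⟨Q, rfl⟩ := exists_frame hn
  have hκm : κ * m ≤ κ := mul_le_of_le_one_right hκ.le (by linarith)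
  have key : ∀ k h₁ : ℝ, κ * m ≤ k → k ≤ κ → |h₁| ≤ k * r / 4 →
      (∀ c₁ h r', √(-t) ≤ c₁ → |h| ≤ 10 * (√(-t) * r * k) → 0 < r' → r' ≤ √(-t) * r * k →
        Real.exp (-(h + c₁ * (h₁ - h₀)) ^ 2 / (4 * r' ^ 2))
          ≤ Real.exp (-h ^ 2 / (4 * r' ^ 2)) + ε / 2) →
      ∃ (Q : E3 ≃ₗᵢ[ℝ] E3) (p' : E3) (ρ : ℝ), 0 < ρ ∧ ρ < η ∧ t + ρ ^ 2 < 0 ∧ ‖p' - p‖ ≤ ρ ∧
        ∀ᶠ i in atTop, SheetOnW (resc w (s i)) (zs Z (s i))
          (Icc (t - ρ ^ 2 / 8) (t + ρ ^ 2 / 8)) Q p' (5 * ρ) ρ η := by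
    intro k h₁ hk1 hk2 hh₁ hexp
    have hk0 : 0 < k := lt_of_lt_of_le (by positivity) hk1
    obtain ⟨g1, g2, g3, g4, g5⟩ := small_scale ht hr hr3 hk0 (hk2.trans hκ1) hr4 hr5 rfl
    obtain ⟨g6, g7⟩ := gd_slice hr hc0 g3 g4 (by positivity) (by linarith) hk2 hκ1 hh₁ hG
    have hρ0 : 0 < √(-t) * r * k := by positivity
    refine ⟨Q, _, _, hρ0, g1, g2, ?_, hS w a C Z s ν ha hw hs Q _ _ t hρ0 g2
      fun ξ h r' hξ hh' hr' => (g7 ξ h r' hξ hh' hr').trans ?_⟩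
    · rw [add_sub_right_comm]
      exact (norm_add_le _ _).trans (by linarith)
    · linarith [hexp _ h r' g3 hh' (lt_of_lt_of_le (half_pos hρ0) hr'.1) hr'.2]
  rcases le_or_gt |h₀| (κ * r / 4) with h0 | h0
  · refine key κ h₀ hκm le_rfl h0 fun c₁ h r' _ _ _ _ => ?_
    rw [sub_self, mul_zero, add_zero]
    linarith
  · refine key (κ * m) 0 le_rfl hκm (by rw [abs_zero]; positivity)
      fun c₁ h r' h1 h2 h3 h4 => le_add_of_nonneg_of_le (Real.exp_pos _).le ?_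
    rw [← mul_assoc (√(-t) * r)] at h2 h4
    refine exp_far (by positivity) hm0 hm1 hm2 ?_ h2 h3 h4
    rw [abs_mul, zero_sub, abs_neg, abs_of_pos (hc0.trans_le h1)]
    calc _ = √(-t) * (κ * r / 4) := by ring
      _ ≤ _ := mul_le_mul h1 h0.le (by positivity) (hc0.trans_le h1).le

end Vale.Agent.P218WK
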