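import Vale.Agent.P218WA.Props
import Vale.Agent.P218UU.Slow

/-! Tangent flows of weak flows: compactness, slow motion, vanishing dissipation and defect. -/

open MeasureTheory Set Filter Topology Metric
open scoped ENNReal NNReal RealInnerProductSpace ContDiff

namespace Vale.Agent.P218WK

open Vale.Agent.P218UA Vale.Agent.P218WA Vale.Agent.P218UW Vale.Agent.P218UX Vale.Agent.P218UM
open Vale.Agent.P218UU (th th_nonneg resc_eq ff contDiff_ff grad_ff deriv_ff ff_zero pointwise_le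
  tendsto_time integral_ff weak_of_tests mem_resc)
open Vale.Agent.P218 (WeakTendsto)
open Vale.Agent.P218.H63 (lap)
open Vale.Agent.P218GA (inner_grad continuous_gradient continuous_lap)

variable {φ : E3 → ℝ} {t R M : ℝ} {x : E3} {w : ℝ → E3 → ℝ} {a A : ℝ} {Z : Set ℝ}

lemma ev_AR (ha : a < 0) (hw : IsW0 w (Ioo a 0) Z A) {s : ℕ → ℝ} (hs : ∀ i, 0 < s i)
    (h0 : Tendsto s atTop (𝓝 0)) {t : ℕ → ℝ} {t' : ℝ} (ht' : t' < 0)
    (ht : Tendsto t atTop (𝓝 t')) : ∀ᶠ i in atTop, AR (ar (resc w (s i) (t i))) A := by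
  have h1 : Tendsto (fun i => s i ^ 2 * t i) atTop (𝓝 0) := by simpa using (h0.pow 2).mul ht
  filter_upwards [h1.eventually (lt_mem_nhds ha), ht.eventually (gt_mem_nhds ht')] with i a b
  rw [resc_eq]
  exact AR_sc (hs i) (hw.ratio _ ⟨a, mul_neg_of_pos_of_neg (pow_pos (hs i) 2) b⟩)

theorem compact (ha : a < 0) (hw : IsW0 w (Ioo a 0) Z A) (s : ℕ → ℝ) (hs : ∀ i, 0 < s i)
    (h : Tendsto s atTop (𝓝 0)) (hZ : ∀ i, s i ^ 2 * (-1) ∉ Z) :
    ∃ (φ : ℕ → ℕ) (ν : Measure E3), StrictMono φ ∧ TanW w Z (s ∘ φ) ν := by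
  obtain ⟨N, hN⟩ := eventually_atTop.1
    (ev_AR ha hw hs h (t := fun _ => -1) neg_one_lt_zero tendsto_const_nhds)
  obtain ⟨φ, ν, hφ, hν, h1⟩ := P218UU.exists_subseq (μ := fun i => ar (resc w (s (i + N)) (-1)))
    fun i => hN _ (Nat.le_add_left _ _)
  have hφ' : StrictMono fun i => φ i + N := fun i j hij => Nat.add_lt_add_right (hφ hij) N
  exact ⟨_, ν, hφ', ⟨fun _ => hs _, h.comp hφ'.tendsto_atTop, hν, h1⟩, fun _ => hZ _⟩

theorem ratio (ha : a < 0) (hw : IsW0 w (Ioo a 0) Z A) {s : ℕ → ℝ} {ν : Measure E3}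
    (h : TanSeq w s ν) : AR ν A := by
  have := h.locFin
  exact P218UU.AR_lim
    (ev_AR ha hw h.pos h.lim (t := fun _ => -1) neg_one_lt_zero tendsto_const_nhds) h.weak

lemma th_anti (hM : MonoW) (hw : IsW0 w (Ioo a 0) Z A) {t₁ t₂ : ℝ} (h₁ : t₁ ∈ Ioo a 0 \ Z)
    (h₂ : t₂ ∈ Ioo a 0 \ Z) (h : t₁ ≤ t₂) : th w t₂ ≤ th w t₁ :=
  (ENNReal.ofReal_le_ofReal_iff (th_nonneg _)).1
    (le_self_add.trans (hM.mono w _ Z A hw 0 0 t₁ h₁ t₂ h₂ h h₂.1.2))

/-- the Gaussian density ratio is almost constant near the final time -/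
lemma exists_th (ha : a < 0) (hw : IsW0 w (Ioo a 0) Z A) {ε : ℝ} (hε : 0 < ε) :
    ∃ b ∈ Ioo a 0 \ Z, ∀ t ∈ Ioo a 0 \ Z, th w b ≤ th w t + ε := by
  have hb : BddBelow (th w '' (Ioo a 0 \ Z)) := ⟨0, by rintro _ ⟨t, -, rfl⟩; exact th_nonneg t⟩
  obtain ⟨c, hc, hcZ⟩ := exists_notMem hw.null ha
  obtain ⟨_, ⟨b, h1, rfl⟩, h2⟩ := exists_lt_of_csInf_lt (s := th w '' (Ioo a 0 \ Z))
    ⟨_, c, ⟨hc, hcZ⟩, rfl⟩ (lt_add_of_pos_right _ hε)
  exact ⟨b, h1, fun t ht => h2.le.trans (add_le_add_left (csInf_le hb ⟨t, ht, rfl⟩) _)⟩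

lemma drop' (hM : MonoW) (ha : a < 0) (hw : IsW0 w (Ioo a 0) Z A) {ε : ℝ} (hε : 0 < ε) :
    ∃ b ∈ Ioo a 0, ∀ t₁ ∈ Ioo b 0 \ Z, ∀ t₂ ∈ Ioo b 0 \ Z, th w t₁ - th w t₂ ≤ ε := by
  obtain ⟨b, hb, h⟩ := exists_th ha hw hε
  refine ⟨b, hb.1, fun t₁ h₁ t₂ h₂ => ?_⟩
  have h3 := th_anti hM hw hb ⟨⟨hb.1.1.trans h₁.1.1, h₁.1.2⟩, h₁.2⟩ h₁.1.1.le
  linarith [h t₂ ⟨⟨hb.1.1.trans h₂.1.1, h₂.1.2⟩, h₂.2⟩]

theorem diss (hM : MonoW) (ha : a < 0) (hw : IsW0 w (Ioo a 0) Z A) :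
    Tendsto (fun b => ∫⁻ t in Ioo b 0, dis w 0 0 t) (𝓝[<] 0) (𝓝 0) := by
  refine ENNReal.tendsto_nhds_zero.2 fun δ hδ => ?_
  obtain ⟨ε, -, hε, hεδ⟩ := ENNReal.lt_iff_exists_real_btwn.1 hδ
  rw [ENNReal.ofReal_pos] at hε
  obtain ⟨b, hb, h⟩ := exists_th ha hw hε
  filter_upwards [Ioo_mem_nhdsLT hb.1.2] with c hc
  refine (lintegral_mono_set (Ioo_subset_Ioo_left hc.1.le)).trans (le_trans ?_ hεδ.le)
  obtain ⟨u, hu, hu0, hul⟩ := exists_seq_strictMono_tendsto' hb.1.2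
  have e : Ioo b 0 = ⋃ n, Ioo b (u n) := by
    refine subset_antisymm (fun t ht => ?_)
      (iUnion_subset fun n => Ioo_subset_Ioo_right (hu0 n).2.le)
    obtain ⟨n, hn⟩ := (hul.eventually (lt_mem_nhds ht.2)).exists
    exact mem_iUnion.2 ⟨n, ht.1, hn⟩
  rw [e, setLIntegral_iUnion_of_directed _ (Monotone.directed_le fun m n h =>
    Ioo_subset_Ioo_right (hu.monotone h))]
  refine iSup_le fun n => ?_
  obtain ⟨v, hv, hvZ⟩ := exists_notMem hw.null (hu0 n).2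
  have hv' : v ∈ Ioo a 0 \ Z := ⟨⟨hb.1.1.trans ((hu0 n).1.trans hv.1), hv.2⟩, hvZ⟩
  refine (lintegral_mono_set (Ioo_subset_Ioo_right hv.1.le)).trans
    (ENNReal.le_of_add_le_add_left (a := ENNReal.ofReal (th w v)) ENNReal.ofReal_ne_top ?_)
  refine (hM.mono w _ Z A hw 0 0 b hb v hv' ((hu0 n).1.trans hv.1).le hv.2).trans ?_
  rw [← ENNReal.ofReal_add (th_nonneg _) hε.le]
  exact ENNReal.ofReal_le_ofReal (h v hv')

theorem defect (hC : CalcW) (hM : MonoW) (ha : a < 0) (hw : IsW0 w (Ioo a 0) Z A) {ε : ℝ}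
    (hR : 1 ≤ R) (hε : 0 < ε) : ∃ ρ₀ > 0, ∀ s ρ : ℝ, 0 < s → 0 < ρ → s * ρ ≤ ρ₀ →
      DefLe (resc w s) (zs Z s) (ball 0 (R * ρ)) (-(R * ρ) ^ 2) (-(ρ / R) ^ 2) (ε * ρ ^ 2) := by
  have hR0 : 0 < R := by linarith
  have hp := Real.pi_pos
  obtain ⟨K, hK⟩ : ∃ K, K = 4 * Real.pi * R ^ 2 * Real.exp (R ^ 4 / 4) := ⟨_, rfl⟩
  have hK0 : 0 < K := by rw [hK]; positivity
  obtain ⟨b, hb, h⟩ := drop' hM ha hw (div_pos hε hK0)
  have hb0 := Real.sqrt_pos.2 (neg_pos.2 hb.2)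
  refine ⟨√(-b) / (2 * R), by positivity, fun s ρ hs hρ hsρ f hf hf1 hfs c hc d hd hcd => ?_⟩
  have hw' := hC.resc0 w a Z A hw s hs
  have m : ∀ t ∈ Icc (-(R * ρ) ^ 2) (-(ρ / R) ^ 2), s ^ 2 * t ∈ Ioo b 0 := fun t ht => by
    refine ⟨?_, mul_neg_of_pos_of_neg (by positivity) (ht.2.trans_lt (neg_neg_of_pos
      (by positivity)))⟩
    rw [le_div_iff₀ (by positivity)] at hsρ
    have h1 : (s * ρ * (2 * R)) ^ 2 ≤ √(-b) ^ 2 := by gcongr
    rw [Real.sq_sqrt (neg_pos.2 hb.2).le] at h1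
    nlinarith [mul_le_mul_of_nonneg_left ht.1 (sq_nonneg s), hb.2]
  have m' : ∀ t ∈ Icc (-(R * ρ) ^ 2) (-(ρ / R) ^ 2), t ∈ Ioo (a / s ^ 2) 0 := fun t ht =>
    (mem_resc hs).1 ⟨hb.1.trans (m t ht).1, (m t ht).2⟩
  have e : ∀ t < 0, gd (ar (resc w s t)) 0 √(0 - t) = th w (s ^ 2 * t) := fun t ht => by
    rw [resc_eq, gd_sc hs, smul_zero, add_zero, th, zero_sub, zero_sub, ← mul_neg,
      Real.sqrt_mul (sq_nonneg s), Real.sqrt_sq hs.le]
  have h1 := hM.dfc_le _ _ _ A hw' 0 0 (K * ρ ^ 2) _ _ (Test.static hw' hf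
    ((isCompact_closedBall 0 (R * ρ)).of_isClosed_subset (isClosed_tsupport f)
      (hfs.trans ball_subset_closedBall))) c ⟨m' c hc.1, hc.2⟩ d ⟨m' d hd.1, hd.2⟩ hcd
    (m' d hd.1).2 fun t ht x => ?_
  · rw [e c (m' c hc.1).2, e d (m' d hd.1).2] at h1
    refine (le_abs_self _).trans (h1.trans ?_)
    refine (mul_le_mul_of_nonneg_left (h _ ⟨m c hc.1, hc.2⟩ _ ⟨m d hd.1, hd.2⟩)
      (by positivity)).trans (le_of_eq ?_)
    field_simp
  · have h2 : 0 - t ≤ (R * ρ) ^ 2 := by linarith [ht.1, hc.1.1]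
    have h3 : (ρ / R) ^ 2 ≤ 0 - t := by linarith [ht.2, hd.1.2]
    have h4 : 0 < 0 - t := lt_of_lt_of_le (by positivity) h3
    by_cases hx : x ∈ ball (0 : E3) (R * ρ)
    · rw [abs_of_nonneg (hf1 x).1, sub_zero]
      refine (hf1 x).2.trans ?_
      have h5 : ‖x‖ ^ 2 / (4 * (0 - t)) ≤ R ^ 4 / 4 := by
        calc _ ≤ (R * ρ) ^ 2 / (4 * (ρ / R) ^ 2) := by
              gcongr
              exact (mem_ball_zero_iff.1 hx).le
          _ = _ := by field_simp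
      have h6 : 1 ≤ Real.exp (R ^ 4 / 4) * Real.exp (-‖x‖ ^ 2 / (4 * (0 - t))) := by
        rw [← Real.exp_add, Real.one_le_exp_iff, neg_div]
        linarith
      rw [← mul_div_assoc, le_div_iff₀ (by positivity), hK]
      calc 1 * (4 * Real.pi * (0 - t)) ≤ (Real.exp (R ^ 4 / 4)
            * Real.exp (-‖x‖ ^ 2 / (4 * (0 - t)))) * (4 * Real.pi * (R * ρ) ^ 2) := by gcongr
        _ = _ := by ring
    · rw [image_eq_zero_of_notMem_tsupport fun h => hx (hfs h), abs_zero]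
      positivity

/-! ### Slow motion -/

lemma test_ff (hφ : ContDiff ℝ 1 φ) (hR : 0 ≤ R)
    (h0 : ∀ y, R < ‖y‖ → φ y = 0 ∧ fderiv ℝ φ y = 0) : Test 1 (Ioo a 0) (Ioo a 0) (ff φ) := by
  refine ⟨isOpen_Ioo, ordConnected_Ioo, subset_rfl, fun p hp => ?_, _,
    isCompact_closedBall 0 (R * √(-a)), fun s hs x hx => ?_⟩
  · have hp0 : -p.1 ≠ 0 := (neg_pos.2 hp.1.2).ne'
    exact ((hφ.contDiffAt.comp p (((contDiffAt_fst.neg.sqrt hp0).inv
      (Real.sqrt_pos.2 (neg_pos.2 hp.1.2)).ne').smul contDiffAt_snd)).div contDiffAt_fst.neg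
      hp0).contDiffWithinAt
  · rw [mem_closedBall_zero_iff, not_le] at hx
    rw [ff, (ff_zero h0 hs.2 (lt_of_le_of_lt (by gcongr; exact hs.1.le) hx)).1, zero_div]

lemma bk_ff (hS : IsSurf (w t)) (hφ : ContDiff ℝ 1 φ)
    (h0 : ∀ y, R < ‖y‖ → φ y = 0 ∧ fderiv ℝ φ y = 0) (ht : t < 0) :
    bk w (ff φ) t = ∫ x, -((lap (w t) x - ⟪x, gradient (w t) x⟫ / (2 * -t)) *
        (⟪gradient (ff φ t) x, gradient (w t) x⟫ + lap (w t) x * ff φ t x)) ∂(ar (w t)) := by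
  have hz : ∀ x, x ∉ closedBall (0 : E3) (R * √(-t)) → ff φ t x = 0 ∧
      ∀ v, ⟪gradient (ff φ t) x, v⟫ = 0 := fun x hx => by
    rw [mem_closedBall_zero_iff, not_le] at hx
    obtain ⟨k1, k2⟩ := ff_zero h0 ht hx
    simp [grad_ff hφ, ff, k1, k2]
  have := locFin hS
  have hf := contDiff_ff hφ t
  have hX : ContDiff ℝ 1 fun x : E3 => ff φ t x • x := hf.smul contDiff_id
  have hc : HasCompactSupport fun x : E3 => ff φ t x • x :=
    HasCompactSupport.intro (isCompact_closedBall 0 _) fun x hx => by rw [(hz x hx).1, zero_smul]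
  have g1 := continuous_gradient (hS.smooth.of_le (by norm_cast))
  have g2 := continuous_lap (hS.smooth.of_le (by norm_cast))
  have g3 := continuous_gradient hf
  have g4 := hf.continuous
  have i1 : Integrable (fun x => -((lap (w t) x - ⟪x, gradient (w t) x⟫ / (2 * -t)) *
      (⟪gradient (ff φ t) x, gradient (w t) x⟫ + lap (w t) x * ff φ t x))) (ar (w t)) :=
    Continuous.integrable_of_hasCompactSupport (by fun_prop)
      (.intro (isCompact_closedBall 0 (R * √(-t))) fun x hx => by simp [(hz x hx).1, (hz x hx).2])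
  have i2 : Integrable (fun x => trT (gradient (w t) x) (fderiv ℝ (fun x : E3 => ff φ t x • x) x))
      (ar (w t)) := (continuous_trT g1 hX).integrable_of_hasCompactSupport
    ((hc.fderiv ℝ).mono fun x hx h => hx (by simp only [h, trT_zero]))
  have i3 : Integrable (fun x => lap (w t) x * ⟪ff φ t x • x, gradient (w t) x⟫) (ar (w t)) :=
    (g2.mul (hX.continuous.inner g1)).integrable_of_hasCompactSupport
      (hc.mono fun x hx h => hx (by
        change lap (w t) x * ⟪(fun x => ff φ t x • x) x, _⟫ = 0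
        rw [h, inner_zero_left, mul_zero]))
  symm
  rw [← add_zero (∫ x, _ ∂(ar (w t))), ← mul_zero (2 * -t)⁻¹, ← sub_eq_zero.2 (firstVar hS hX hc),
    ← integral_sub i2 i3, ← integral_const_mul, ← integral_add i1 ((i2.sub' i3).const_mul _), bk]
  refine integral_congr_ae ?_
  filter_upwards [ae_ar hS.smooth.continuous] with x hx
  have h2 : trT (gradient (w t) x) (fderiv ℝ (fun x : E3 => x) x) = 2 := by
    rw [fderiv_fun_id, trT, ContinuousLinearMap.id_apply, real_inner_self_eq_norm_sq,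
      (hS.eik x hx).self_of_nhds]
    simp
    norm_num
  rw [trT_smul (hf.differentiable one_ne_zero x) differentiableAt_fun_id, h2, deriv_ff hφ ht,
    real_inner_smul_left]
  ring

lemma bk_le (hS : IsSurf (w t)) (hA : AR (ar (w t)) A) (hφ : ContDiff ℝ 1 φ) (hR : 0 < R)
    (h0 : ∀ y, R < ‖y‖ → φ y = 0 ∧ fderiv ℝ φ y = 0) (hM : ∀ y, |φ y| ≤ M ∧ ‖fderiv ℝ φ y‖ ≤ M)
    {ε : ℝ} (hε : 0 < ε) (ht : t < 0) :
    ‖bk w (ff φ) t‖ₑ ≤ ENNReal.ofReal (ε * A * R ^ 2 / -t)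
      + ENNReal.ofReal ((M + (M * (1 + R / 2)) ^ 2 / (4 * ε)) * (4 * Real.pi * Real.exp (R ^ 2 / 4)))
        * dis w 0 0 t := by
  have hτ : 0 < -t := neg_pos.2 ht
  have hc := Real.sqrt_pos.2 hτ
  have hc2 := Real.sq_sqrt hτ.le
  have M0 : 0 ≤ M := (abs_nonneg _).trans (hM 0).1
  rw [bk_ff hS hφ h0 ht, dis, ← lintegral_const_mul' _ _ ENNReal.ofReal_ne_top]
  refine (enorm_integral_le_lintegral_enorm _).trans (le_trans (lintegral_mono_ae
    (g := fun x => (closedBall (0 : E3) (R * √(-t))).indicator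
      (fun _ => ENNReal.ofReal (ε / √(-t) ^ 4)) x + _) ?_) ((lintegral_add_left
      (measurable_const.indicator measurableSet_closedBall) _).trans_le (add_le_add_left ?_ _)))
  · filter_upwards [ae_ar hS.smooth.continuous] with x hx
    have hn := (hS.eik x hx).self_of_nhds
    by_cases hx' : x ∈ closedBall (0 : E3) (R * √(-t))
    · rw [indicator_of_mem hx', ← ENNReal.ofReal_mul (by positivity),
        ← ENNReal.ofReal_add (by positivity) (by rw [zero_sub]; positivity), ← ofReal_norm]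
      rw [mem_closedBall_zero_iff] at hx'
      refine ENNReal.ofReal_le_ofReal ((pointwise_le (R := R) (M := M)
        (u := ⟪x, gradient (w t) x⟫) hc hε ?_ ?_ ?_ (by rw [hc2])).trans ?_)
      · rw [grad_ff hφ, hc2, abs_div, abs_mul, abs_of_pos hτ, abs_of_pos (inv_pos.2 hc)]
        gcongr
        simpa [hn] using (fderiv ℝ φ _).le_of_opNorm_le (hM _).2 (gradient (w t) x)
      · rw [ff, hc2, abs_div, abs_of_pos hτ]
        gcongr
        exact (hM _).1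
      · simpa [hn] using (abs_real_inner_le_norm x (gradient (w t) x)).trans
          (mul_le_mul_of_nonneg_right hx' (norm_nonneg _))
      · rw [mul_assoc (M + _), zero_sub, sub_zero, hc2]
        gcongr
        have h3 : 1 ≤ Real.exp (R ^ 2 / 4) * Real.exp (-‖x‖ ^ 2 / (4 * -t)) := by
          rw [← Real.exp_add, Real.one_le_exp_iff, neg_div, ← sub_eq_add_neg, sub_nonneg,
            div_le_div_iff₀ (by positivity) (by positivity)]
          have : ‖x‖ ^ 2 ≤ (R * √(-t)) ^ 2 := by gcongr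
          rw [mul_pow, hc2] at this
          linarith
        refine (le_mul_of_one_le_right (by positivity) h3).trans (le_of_eq ?_)
        field_simp
    · rw [mem_closedBall_zero_iff, not_le] at hx'
      obtain ⟨k1, k2⟩ := ff_zero h0 ht hx'
      simp [grad_ff hφ, ff, k1, k2]
  · rw [lintegral_indicator_const measurableSet_closedBall]
    refine (mul_le_mul_right (hA 0 _ (by positivity)) _).trans (le_of_eq ?_)
    rw [← ENNReal.ofReal_mul (by positivity), mul_pow, show √(-t) ^ 4 = (√(-t) ^ 2) ^ 2 by ring, hc2]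
    congr 1
    field_simp

lemma ff_le (h0 : ∀ y, R < ‖y‖ → φ y = 0 ∧ fderiv ℝ φ y = 0) (hM : ∀ y, |φ y| ≤ M)
    (ht : t < 0) (x : E3) : |ff φ t x| ≤ M * (4 * Real.pi * Real.exp (R ^ 2 / 4))
      * (Real.exp (-‖x - 0‖ ^ 2 / (4 * (0 - t))) / (4 * Real.pi * (0 - t))) := by
  have hτ : 0 < -t := neg_pos.2 ht
  have M0 : 0 ≤ M := (abs_nonneg _).trans (hM 0)
  have hp := Real.pi_pos
  rw [zero_sub, sub_zero, ff]
  rcases le_or_gt ‖x‖ (R * √(-t)) with hx | hx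
  · have h3 : 1 ≤ Real.exp (R ^ 2 / 4) * Real.exp (-‖x‖ ^ 2 / (4 * -t)) := by
      rw [← Real.exp_add, Real.one_le_exp_iff, neg_div, ← sub_eq_add_neg, sub_nonneg,
        div_le_div_iff₀ (by positivity) (by positivity)]
      have : ‖x‖ ^ 2 ≤ (R * √(-t)) ^ 2 := by gcongr
      rw [mul_pow, Real.sq_sqrt hτ.le] at this
      linarith
    rw [abs_div, abs_of_pos hτ]
    calc _ ≤ M / -t * (Real.exp (R ^ 2 / 4) * Real.exp (-‖x‖ ^ 2 / (4 * -t))) :=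
          (div_le_div_of_nonneg_right (hM _) hτ.le).trans (le_mul_of_one_le_right (by positivity) h3)
      _ = _ := by field_simp
  · rw [(ff_zero h0 ht hx).1, zero_div, abs_zero]
    positivity

lemma enorm_mass_le {f : ℝ → E3 → ℝ} {g : ℝ → ℝ≥0∞} {b b' e : ℝ}
    (h : ∀ t ∈ Icc b b', ‖bk w f t‖ₑ ≤ g t)
    (hd : ∀ c ∈ Icc b b' \ Z, ∀ d ∈ Icc b b' \ Z, c ≤ d → |dfc w f c d| ≤ e) {t₁ t₂ : ℝ}
    (h₁ : t₁ ∈ Icc b b' \ Z) (h₂ : t₂ ∈ Icc b b' \ Z) :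
    ‖∫ x, f t₂ x ∂(ar (w t₂)) - ∫ x, f t₁ x ∂(ar (w t₁))‖ₑ
      ≤ (∫⁻ t in Icc b b', g t) + ENNReal.ofReal e := by
  wlog h12 : t₁ ≤ t₂ generalizing t₁ t₂
  · rw [enorm_sub_rev]
    exact this h₂ h₁ (le_of_not_ge h12)
  rw [show ∫ x, f t₂ x ∂(ar (w t₂)) - ∫ x, f t₁ x ∂(ar (w t₁))
    = (∫ t in t₁..t₂, bk w f t) - dfc w f t₁ t₂ by rw [dfc]; ring]
  refine enorm_sub_le.trans (add_le_add ?_ ?_)
  · rw [intervalIntegral.integral_of_le h12]
    exact (enorm_integral_le_lintegral_enorm _).trans ((lintegral_mono_set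
      (Ioc_subset_Icc_self.trans (Icc_subset_Icc h₁.1.1 h₂.1.2))).trans
      (setLIntegral_mono' measurableSet_Icc h))
  · rw [← ofReal_norm]
    exact ENNReal.ofReal_le_ofReal (hd _ h₁ _ h₂ h12)

lemma tendsto_ff (hM : MonoW) (ha : a < 0) (hw : IsW0 w (Ioo a 0) Z A) (hφ : ContDiff ℝ 1 φ)
    (hc : HasCompactSupport φ) {s : ℕ → ℝ} (hs : ∀ i, 0 < s i) (h0 : Tendsto s atTop (𝓝 0))
    {t : ℕ → ℝ} {t' : ℝ} (ht' : t' < 0) (ht : Tendsto t atTop (𝓝 t'))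
    (hZ : ∀ i, s i ^ 2 * (-1) ∉ Z) (hZ' : ∀ᶠ i in atTop, s i ^ 2 * t i ∉ Z) :
    Tendsto (fun i => ∫ x, ff φ (s i ^ 2 * t i) x ∂(ar (w (s i ^ 2 * t i)))
      - ∫ x, ff φ (s i ^ 2 * (-1)) x ∂(ar (w (s i ^ 2 * (-1))))) atTop (𝓝 0) := by
  obtain ⟨R, hR, hR'⟩ := hc.isCompact.isBounded.subset_closedBall_lt 0 0
  have k0 : ∀ y, R < ‖y‖ → φ y = 0 ∧ fderiv ℝ φ y = 0 := fun y hy => by
    have : y ∉ tsupport φ := fun h => hy.not_ge (mem_closedBall_zero_iff.1 (hR' h))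
    exact ⟨image_eq_zero_of_notMem_tsupport this,
      Function.notMem_support.1 fun h => this (support_fderiv_subset ℝ h)⟩
  obtain ⟨M₁, hM₁⟩ := hφ.continuous.bounded_above_of_compact_support hc
  obtain ⟨M₂, hM₂⟩ := (hφ.continuous_fderiv one_ne_zero).bounded_above_of_compact_support
    (hc.fderiv ℝ)
  have kM : ∀ y, |φ y| ≤ max M₁ M₂ ∧ ‖fderiv ℝ φ y‖ ≤ max M₁ M₂ := fun y =>
    ⟨(hM₁ y).trans (le_max_left _ _), (hM₂ y).trans (le_max_right _ _)⟩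
  obtain ⟨T₁, T₂, a1, a2, a3, a4, a5⟩ : ∃ T₁ T₂ : ℝ, T₁ < -1 ∧ T₁ < t' ∧ -1 < T₂ ∧ t' < T₂ ∧
      T₂ < 0 := ⟨min (-1) t' - 1, max (-1) t' / 2, by linarith [min_le_left (-1) t'],
    by linarith [min_le_right (-1) t'],
    by linarith [le_max_left (-1) t', max_lt neg_one_lt_zero ht'],
    by linarith [le_max_right (-1) t', max_lt neg_one_lt_zero ht'],
    by linarith [max_lt neg_one_lt_zero ht']⟩
  have hA : 0 < A := zero_lt_one.trans_le hw.one_le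
  have hT : 0 < T₂ - T₁ := by linarith
  have hT₂ : 0 < -T₂ := by linarith
  have hlim := tendsto_time hs h0 (show 2 * T₁ < 0 by linarith)
  rw [tendsto_zero_iff_enorm_tendsto_zero, ENNReal.tendsto_nhds_zero]
  intro δ hδ
  obtain ⟨η, -, hη, hηδ⟩ := ENNReal.lt_iff_exists_real_btwn.1 (ENNReal.half_pos hδ.ne')
  rw [ENNReal.ofReal_pos] at hη
  obtain ⟨ε, hε⟩ : ∃ ε, ε = η / 2 * -T₂ / (A * R ^ 2 * (T₂ - T₁)) := ⟨_, rfl⟩
  have hε0 : 0 < ε := by rw [hε]; positivity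
  obtain ⟨K, hK⟩ : ∃ K, K = max M₁ M₂ * (4 * Real.pi * Real.exp (R ^ 2 / 4)) := ⟨_, rfl⟩
  have hK0 : 0 ≤ K := by
    have := (abs_nonneg _).trans (kM 0).1
    rw [hK]; positivity
  obtain ⟨b, hb, hd⟩ := drop' hM ha hw (show 0 < η / 2 / (K + 1) by positivity)
  filter_upwards [(ENNReal.Tendsto.const_mul (a := ENNReal.ofReal ((max M₁ M₂ + (max M₁ M₂
    * (1 + R / 2)) ^ 2 / (4 * ε)) * (4 * Real.pi * Real.exp (R ^ 2 / 4))))
    ((diss hM ha hw).comp hlim) (Or.inr ENNReal.ofReal_ne_top)).eventually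
    (gt_mem_nhds ((mul_zero _).trans_lt (ENNReal.half_pos hδ.ne'))),
    hlim.eventually (Ioo_mem_nhdsLT hb.2),
    ht.eventually (Icc_mem_nhds a2 a4), hZ'] with i b1 b2 b3 b6
  have s2 := pow_pos (hs i) 2
  have b4 : Icc (s i ^ 2 * T₁) (s i ^ 2 * T₂) ⊆ Ioo (s i ^ 2 * (2 * T₁)) 0 :=
    Icc_subset_Ioo (by gcongr; linarith) (mul_neg_of_pos_of_neg s2 a5)
  have b5 := b4.trans (Ioo_subset_Ioo_left b2.1.le)
  have b7 := b5.trans (Ioo_subset_Ioo_left hb.1.le)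
  refine (enorm_mass_le (f := ff φ) (Z := Z) (e := η / 2)
    (g := fun t => ENNReal.ofReal (ε * A * R ^ 2 / (s i ^ 2 * -T₂)) + _ * dis w 0 0 t)
    (fun t ht => (bk_le (hw.slice (b7 ht)) (hw.ratio t (b7 ht)) hφ hR k0 kM hε0 (b7 ht).2).trans
      (add_le_add_left (ENNReal.ofReal_le_ofReal ?_) _)) (fun c hc d hd' hcd => ?_)
    (t₁ := s i ^ 2 * (-1)) (t₂ := s i ^ 2 * t i) ⟨⟨by gcongr, by gcongr⟩, hZ i⟩
    ⟨⟨by gcongr; exact b3.1, by gcongr; exact b3.2⟩, b6⟩).trans ?_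
  · gcongr
    linarith [ht.2]
  · refine (hM.dfc_le w _ Z A hw 0 0 K _ _ (test_ff hφ hR.le k0) c ⟨b7 hc.1, hc.2⟩ d
      ⟨b7 hd'.1, hd'.2⟩ hcd (b7 hd'.1).2 fun t ht x => hK ▸ ff_le k0 (fun y => (kM y).1)
        (ht.2.trans_lt (b7 hd'.1).2) x).trans ?_
    refine (mul_le_mul_of_nonneg_left (hd c ⟨b5 hc.1, hc.2⟩ d ⟨b5 hd'.1, hd'.2⟩) hK0).trans ?_
    rw [mul_comm]
    exact P218UU.div_mul_le (half_pos hη) hK0
  · rw [lintegral_add_left measurable_const, setLIntegral_const, Real.volume_Icc,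
      ← ENNReal.ofReal_mul (by positivity), lintegral_const_mul' _ _ ENNReal.ofReal_ne_top,
      ← ENNReal.add_halves δ, add_right_comm, ← ENNReal.ofReal_add
        (mul_nonneg (by positivity) (by rw [← mul_sub]; positivity)) (half_pos hη).le]
    refine add_le_add (le_trans (le_of_eq ?_) hηδ.le)
      ((mul_le_mul_right (lintegral_mono_set b4) _).trans b1.le)
    have := a5.ne
    have := (hs i).ne'
    rw [hε, ← mul_sub]
    congr 1
    field_simp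
    ring

theorem slow (hM : MonoW) (ha : a < 0) (hw : IsW0 w (Ioo a 0) Z A) {s : ℕ → ℝ} {ν : Measure E3}
    (h : TanW w Z s ν) (t : ℕ → ℝ) (t' : ℝ) (ht' : t' < 0) (ht : Tendsto t atTop (𝓝 t'))
    (hZ : ∀ᶠ i in atTop, s i ^ 2 * t i ∉ Z) :
    WeakTendsto (fun i => ar (resc w (s i) (t i))) (scal ν √(-t')) := by
  have := h.locFin
  refine weak_of_tests (zero_le_one.trans hw.one_le) (ev_AR ha hw h.pos h.lim ht' ht)
    (Real.sqrt_pos.2 (neg_pos.2 ht')) ht.neg.sqrt fun φ hφ hc => ?_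
  rw [Real.sq_sqrt (neg_pos.2 ht').le]
  have h1 := ht.neg.mul ((tendsto_ff hM ha hw hφ hc h.pos h.lim ht' ht h.regT hZ).add
    (h.weak φ hφ.continuous hc))
  rw [zero_add] at h1
  refine h1.congr' ?_
  filter_upwards [ht.eventually (gt_mem_nhds ht')] with i hi
  rw [integral_ff (h.pos i), integral_ff (h.pos i)]
  simp [hi.ne]

/-- [TAN] -/
theorem tang (hC : CalcW) (hM : MonoW) : TangW where
  compact _ _ _ _ := compact
  slow _ _ _ _ ha hw _ _ := slow hM ha hw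
  ratio _ _ _ _ ha hw _ _ h := ratio ha hw h.toTanSeq
  diss _ _ _ _ := diss hM
  drop _ _ _ _ ha hw ε hε := by
    obtain ⟨b, hb, h⟩ := drop' hM ha hw hε
    exact ⟨b, hb.2, fun t₁ h₁ t₂ h₂ _ => by simpa only [th, zero_sub] using h t₁ h₁ t₂ h₂⟩
  defect _ _ _ _ ha hw _ _ := defect hC hM ha hw

end Vale.Agent.P218WK
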